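import Crest.Agent.X212.Line51.Nat
import Crest.Agent.X212.Nat75.Inst
import Crest.Agent.X212.Lx5.Main
import Crest.Agent.X212.Top11.Main
import Crest.Agent.X212.Two48.Defs
import Crest.Agent.X212.Two48.Lt
import Crest.Agent.X212.Two48.Cn
import Crest.Agent.X212.Two48.Sb
import Crest.Agent.X212.Two48.Step
import Crest.Agent.X212.Two48.En
import Crest.Agent.X212.Two48.Tm
import Crest.Agent.X212.Ins26.NvA
import Crest.Agent.X212.Abel74.CmpL
import Crest.Agent.X212.Ins26.NvB
import Crest.Agent.X212.Ins26.NvC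
import Crest.Agent.X212.Ins26.Nv
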